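import Vale.Agent.P212.Base.Tower

/-!
P212: the interface between the ring part and the tower part: a finite local algebra over the
field with five elements with a chain of ideals, four units, parameters and a central commutator.
-/

namespace VP212.Alg

/-- Add `r` times row `j` to row `i` of a pair of columns. -/
def rowOp {R : Type} [Add R] [Mul R] (i j : Fin 3) (r : R) (v : Fin 3 → Fin 2 → R) :
    Fin 3 → Fin 2 → R :=
  Function.update v i (fun b => v i b + r * v j b)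

/-- The ring data of one component. -/
structure RData where
  R : Type
  [ring : Ring R]
  [alg : Algebra (ZMod 5) R]
  [fin : Fintype R]
  [dec : DecidableEq R]
  ε : R →ₐ[ZMod 5] ZMod 5
  isUnit_of : ∀ r, ε r ≠ 0 → IsUnit r
  x : Rˣ
  y : Rˣ
  len : ℕ
  len_pos : 1 ≤ len
  I : ℕ → Submodule (ZMod 5) R
  I_zero : I 0 = ⊤
  I_one : ∀ r, r ∈ I 1 ↔ ε r = 0
  I_anti : ∀ i, I (i + 1) ≤ I i
  I_top : ∀ i, len ≤ i → I i = ⊥
  j : ℕ → R
  j_mem : ∀ i, 1 ≤ i → j i ∈ I i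
  step : ∀ i, 1 ≤ i → ∀ r ∈ I i, ∃ t : ZMod 5, r - t • j i ∈ I (i + 1)
  mul_lt : ∀ i, 1 ≤ i → ∀ r ∈ I i, ∀ m, ε m = 0 → m * r ∈ I (i + 1) ∧ r * m ∈ I (i + 1)
  reach : ∀ r : R, Relation.ReflTransGen
    (fun P P' : Rˣ × R => (∃ g ∈ [x, x⁻¹, y, y⁻¹], P' = (P.1 * g, P.2)) ∨
      P' = (P.1, P.2 + P.1) ∨ P' = (P.1, P.2 - P.1))
    (1, r) (1, 0)
  a : Rˣ
  b : Rˣ
  c₀ : Rˣ
  c₀_comm : ∀ r : R, Commute (c₀ : R) r
  ba : b * a = a * b * c₀
  ε_c₀ : ε c₀ = 1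
  Q : ℕ
  c₀_pow : ∀ k : ℕ, c₀ ^ k = 1 ↔ Q ∣ k

attribute [instance] RData.ring RData.alg RData.fin RData.dec

variable (D : RData)

/-- The coefficient map of the letters at the parameters `(p, s)`. -/
def RData.W (p : D.Rˣ) (s : D.R) (v : Coef) : D.R :=
  v 0 • 1 + v 1 • (D.x : D.R) + v 2 • ((D.x⁻¹ : D.Rˣ) : D.R) + v 3 • (D.y : D.R) +
    v 4 • ((D.y⁻¹ : D.Rˣ) : D.R) + v 5 • (p : D.R) + v 6 • s

/-- A letter at the parameters `(p, s)`, as a row operation. -/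
def RData.op (p : D.Rˣ) (s : D.R) (g : Gen) : (Fin 3 → Fin 2 → D.R) → Fin 3 → Fin 2 → D.R :=
  rowOp g.1 (g.1 + 1) (D.W p s g.2)

/-- A word, the first letter acting last. -/
def RData.wordOp (w : List Gen) (v : Fin 3 → Fin 2 → D.R) : Fin 3 → Fin 2 → D.R :=
  w.foldr (D.op 1 0) v

/-- The two columns are independent modulo the maximal ideal. -/
def RData.IsFrame (v : Fin 3 → Fin 2 → D.R) : Prop :=
  ∀ α β : ZMod 5, (∀ i, α * D.ε (v i 0) + β * D.ε (v i 1) = 0) → α = 0 ∧ β = 0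

/-- Short words fix a frame as soon as they fix it up to the central commutator. -/
def RData.Loops (K : ℕ) : Prop :=
  ∀ w : List Gen, w.length ≤ K → ∀ v, D.IsFrame v → ∀ k : ℕ,
    (∀ i b, D.wordOp w v i b = v i b * ((D.c₀ ^ k : D.Rˣ) : D.R)) → D.Q ∣ k

/-- The output of the ring part. -/
def RingSpec : Prop :=
  ∃ D : ℕ → RData, (∀ n, (D n).Q = 5 ^ (2 * n)) ∧ ∀ K, ∃ N, ∀ n ≥ N, (D n).Loops K

end VP212.Alg
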